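import Vale.Agent.P235.H141.Star.Defs
import Vale.Agent.P235.R2.H598.Piece

/-!
# P235, star sums: the induction (helper142)

`base_step` and `main_ind` are the proofs of `base_step2` (H105/Glue, R2/H598/Piece) and
`main_induct2` (H105/Sum), with the marked edges as roots and the tight graph as graph.
-/

set_option autoImplicit false

namespace Vale.Agent.P235.H142.Star

open Vale.Agent.P235 Vale.Agent.P235.H141.Star

theorem msum0_le {P : ∀ (V : Type), SimpleGraph V → SimpleGraph V → Prop} {V : Type}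
    {G E : SimpleGraph V} (h : MSum0 P G E) : E ≤ G := by
  cases h with
  | base h _ => exact h
  | glue h => exact h

/-- the base step: exact at the edges of `E`, conclusion for all edges of `T` -/
theorem base_step {V : Type} [Finite V] (T : SimpleGraph V) {E : SimpleGraph V} {c c0 K1 : ℝ}
    (hc : 0 < c) (hc1 : c ≤ 1) (hc0 : c0 = c / 120) (hK : K1 = 4 / c0) {d : V → V → ℝ}
    (hLL : R2.H598.ExactAt E d c) (hd : IsMet d) {s t : V} (hst : E.Adj s t) {D : ℝ}
    (hD1 : c0 * d s t ≤ D) (hD2 : D ≤ d s t) :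
    ∃ F : V → V → ℝ, IsL1 F ∧ F s t = D ∧ EmbOn Set.univ T d c0 K1 s t F := by
  have hc0' : 0 < c0 := by rw [hc0]; positivity
  have hc03 : c0 ≤ 1 / 3 := by rw [hc0]; linarith only [hc1]
  have hD : 0 < D := (mul_pos hc0' (hd.pos s t hst.ne)).trans_le hD1
  have hK1c : K1 * c0 = 4 := by rw [hK]; field_simp
  have hK1 : 0 < K1 := by rw [hK]; positivity
  obtain ⟨F, hF, hFst, hlow, hup, hΦ⟩ :=
    R2.H598.piece2 hc hc1 hc0 hLL hd hst hD1 hD2
  refine ⟨F, hF, hFst, ?_⟩
  have triF : ∀ x y z, Tri (F x y) (F x z) (F y z) := by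
    intro x y z
    have := hF.Tri x y z
    rw [hF.symm z x, hF.symm z y] at this
    exact this
  -- the chain step for all pairs
  have hstep : ∀ K, K1 ≤ K → ∀ a b τa τb, Good K (F s t) a b τa τb → ∀ u v,
      min (τa + d s u) (τb + d t u) ≤ K * pot (F u v) (comp (F s t) a b (F u s) (F u t))
      (comp (F s t) a b (F v s) (F v t)) := by
    intro K hKK a b τa τb hg u v
    rw [hFst] at hg ⊢
    have h1 := hΦ u v
    rw [hd.symm u s, hd.symm u t] at h1
    have T1 := hF.Tri s t u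
    have T2 := hF.Tri s t v
    rw [hFst] at T1 T2
    refine step hc0' hc03 (by rw [← hK]; exact hKK) hD hg T1 T2 (triF u v s) (triF u v t)
      ?_ ?_ ?_ ?_ h1
    · rw [hd.symm s u]; exact hlow u s
    · rw [hd.symm t u]; exact hlow u t
    · rw [hd.symm s u]; exact hup u s
    · rw [hd.symm t u]; exact hup u t
  have hDF : 0 < F s t := by rw [hFst]; exact hD
  have hpt : ∀ K, K1 ≤ K → ∀ x u, d x u ≤ K * F x u := by
    intro K hKK x u
    have h1 := hlow x u
    have h2 := hF.nonneg x u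
    have h3 := hd.nonneg x u
    have h4 : d x u ≤ K1 * F x u := by
      have : K1 * (c0 * d x u) ≤ K1 * F x u := mul_le_mul_of_nonneg_left h1 hK1.le
      rw [← mul_assoc, hK1c] at this
      linarith only [h3, this]
    exact h4.trans (mul_le_mul_of_nonneg_right hKK h2)
  constructor
  · intro u _ v _ _; exact hlow u v
  · intro u _ v _ _; exact hup u v
  · intro K hKK a b τa τb hg u _ v _ _
    exact hstep K hKK a b τa τb hg u v
  · intro K hKK a b τa τb hg u _
    refine (hstep K hKK a b τa τb hg u s).trans ?_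
    have hT : Tri (F u s) (comp (F s t) a b (F u s) (F u t)) (comp (F s t) a b (F s s) (F s t)) :=
      comp_tri hDF hg.1 (triF u s s) (triF u s t)
    have := mul_le_mul_of_nonneg_left (pot_le hT) (hK1.le.trans hKK)
    linarith only [this]
  · intro p _ q _ hpq hp' hq' δp δq hT hR u _ v _ _
    have hDpq : 0 < F p q := (mul_pos hc0' (hd.pos p q hpq.ne)).trans_le (hlow p q)
    have hpot : ∀ a b, Tri (F p q) a b → a ≤ pot (F p q) a b := fun a b h => pot_ge h
    have hG : Good K1 (F p q) (F u p) (F u q) (d u p) (d u q) := by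
      refine ⟨hF.Tri p q u, ?_, ?_⟩
      · exact (hpt K1 le_rfl u p).trans
          (mul_le_mul_of_nonneg_left (pot_ge (hF.Tri p q u)) hK1.le)
      · exact (hpt K1 le_rfl u q).trans
          (mul_le_mul_of_nonneg_left (pot_ge (hF.Tri p q u).swap) hK1.le)
    have g := hR _ _ _ _ hG
    rw [comp_comm hDpq] at g
    have hT2 : Tri (F u v) (comp (F p q) hp' hq' (F u p) (F u q))
        (comp (F p q) hp' hq' (F v p) (F v q)) := comp_tri hDpq hT (triF u v p) (triF u v q)
    have := mul_le_mul_of_nonneg_left (pot_ge hT2) (by linarith only [hK1] : 0 ≤ 5 * K1)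
    refine le_trans ?_ (g.trans this)
    rw [hd.symm p u, hd.symm q u, add_comm δp, add_comm δq]
  · intro x _ u _ v _ _
    refine (hpt (5 * K1) (by linarith only [hK1]) x u).trans ?_
    apply mul_le_mul_of_nonneg_left (pot_ge _) (by linarith only [hK1])
    exact hF.Tri u v x
  · intro x _ u _
    exact hpt (5 * (5 * K1)) (by linarith only [hK1]) x u

theorem tight_induce {V : Type} (G E : SimpleGraph V) (d d' : V → V → ℝ) (M : ℝ) (A : Set V) :
    (tight G E d d' M).induce A =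
      tight (G.induce A) (E.induce A) (fun x y => d x y) (fun x y => d' x y) M := rfl

theorem le_tight {V : Type} {G E : SimpleGraph V} (h : E ≤ G) (d d' : V → V → ℝ) (M : ℝ) :
    E ≤ tight G E d d' M := fun _ _ huv => ⟨h huv, Or.inl huv⟩

theorem pair_induce {V : Type} {G E : SimpleGraph V} {M : ℝ} {d d' : V → V → ℝ} {A B : Set V}
    {s t : V} (h : Pair G E M d d') (hle : E ≤ G) (hst : E.Adj s t) (hAB : A ∪ B = Set.univ)
    (hI : A ∩ B = {s, t}) (hsA : s ∈ A) (htA : t ∈ A)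
    (hno : ∀ a b, a ∉ B → b ∉ A → ¬ G.Adj a b) :
    Pair (G.induce A) (E.induce A) M (fun x y : A => d x y) (fun x y : A => d' x y) where
  met := isMet_induce h.met
  met' := isMet_induce h.met'
  gen := gen_induce h.met h.gen hAB hI hsA htA (hle hst) hno
  gen' := gen_induce h.met' h.gen' hAB hI hsA htA (le_tight hle d d' M hst)
    (fun a b ha hb hab => hno a b ha hb hab.1)
  le := fun x y => h.le x y
  le' := fun x y => h.le' x y
  eq := fun u v huv => h.eq u v huv

theorem main_ind {P : ∀ (V : Type), SimpleGraph V → SimpleGraph V → Prop} {c c0 K1 M : ℝ}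
    (hc : 0 < c) (hc1 : c ≤ 1) (hc0 : c0 = c / 120) (hK : K1 = 4 / c0)
    (hP : ∀ (V : Type) [Finite V] (G E : SimpleGraph V), E ≤ G → P V G E → PieceOK M c G E)
    {V : Type} {G E : SimpleGraph V} (hE : MSum0 P G E) :
    Finite V → ∀ d d' : V → V → ℝ, Pair G E M d d' → ∀ s t : V, E.Adj s t → ∀ D : ℝ,
      c0 * d' s t ≤ D → D ≤ d' s t →
      ∃ F : V → V → ℝ, IsL1 F ∧ F s t = D ∧ EmbOn Set.univ (tight G E d d' M) d' c0 K1 s t F := by
  have hc0' : 0 < c0 := by rw [hc0]; positivity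
  have hK1 : 0 < K1 := by rw [hK]; positivity
  induction hE with
  | @base V G E hle hp =>
    intro hfin d d' hd s t hst D hD1 hD2
    have hX : R2.H598.ExactAt E d' c := fun s t hst D hD hD2 =>
      hP V G E hle hp d d' hd s t hst D hD hD2
    exact base_step _ hc hc1 hc0 hK hX hd.met' hst hD1 hD2
  | @glue V G E A B s t hle hst hAB hI hno _ _ ihA ihB =>
    intro hfin d d' hd s0 t0 hst0 D0 hD1 hD2
    have hsAB : s ∈ A ∩ B := by rw [hI]; exact Or.inl rfl
    have htAB : t ∈ A ∩ B := by rw [hI]; exact Or.inr rfl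
    obtain ⟨hsA, hsB⟩ := hsAB
    obtain ⟨htA, htB⟩ := htAB
    have hmem : ∀ u, u ∈ A ∨ u ∈ B := by
      intro u
      have : u ∈ A ∪ B := by rw [hAB]; trivial
      exact this
    have hedge : ∀ u v, G.Adj u v → (u ∈ A ∧ v ∈ A) ∨ (u ∈ B ∧ v ∈ B) := by
      intro u v huv
      by_cases hu : u ∈ A
      · by_cases hv : v ∈ A
        · exact Or.inl ⟨hu, hv⟩
        · have hvB := (hmem v).resolve_left hv
          by_cases huB : u ∈ B
          · exact Or.inr ⟨huB, hvB⟩
          · exact absurd huv (hno u v huB hv)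
      · have huB := (hmem u).resolve_left hu
        by_cases hvB : v ∈ B
        · exact Or.inr ⟨huB, hvB⟩
        · exact absurd huv.symm (hno v u hvB hu)
    have hAB' : B ∪ A = Set.univ := by rw [Set.union_comm]; exact hAB
    have hI' : B ∩ A = {s, t} := by rw [Set.inter_comm]; exact hI
    have hno' : ∀ a b, a ∉ A → b ∉ B → ¬ G.Adj a b := fun a b ha hb h => hno b a hb ha h.symm
    have pA := pair_induce hd hle hst hAB hI hsA htA hno
    have pB := pair_induce hd hle hst hAB' hI' hsB htB hno'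
    have hT : E ≤ tight G E d d' M := le_tight hle d d' M
    have hnoT : ∀ a b, a ∉ B → b ∉ A → ¬ (tight G E d d' M).Adj a b :=
      fun a b ha hb hab => hno a b ha hb hab.1
    have hnoT' : ∀ a b, a ∉ A → b ∉ B → ¬ (tight G E d d' M).Adj a b :=
      fun a b ha hb hab => hno' a b ha hb hab.1
    rcases hedge s0 t0 (hle hst0) with ⟨hs0, ht0⟩ | ⟨hs0, ht0⟩
    · obtain ⟨FA, lA, eA, EA⟩ := ihA inferInstance _ _ pA ⟨s0, hs0⟩ ⟨t0, ht0⟩ hst0 D0 hD1 hD2
      have low := EA.low ⟨s, hsA⟩ trivial ⟨t, htA⟩ trivial (hT hst)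
      have up := EA.up ⟨s, hsA⟩ trivial ⟨t, htA⟩ trivial (hT hst)
      obtain ⟨FB, lB, eB, EB⟩ := ihB inferInstance _ _ pB ⟨s, hsB⟩ ⟨t, htB⟩ hst
        (FA ⟨s, hsA⟩ ⟨t, htA⟩) low up
      have hDpos : 0 < FA ⟨s, hsA⟩ ⟨t, htA⟩ :=
        (mul_pos hc0' (hd.met'.pos s t hst.ne)).trans_le low
      obtain ⟨F, hF, hFA, hFB, hFAB⟩ := glue A B s t hAB hI FA FB lA lB hsA htA hsB htB _ hDpos
        rfl eB
      have EA' := EmbOn.transfer (G := tight G E d d' M) (d := d') EA hFA
      have EB' := EmbOn.transfer (G := tight G E d d' M) (d := d') EB hFB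
      refine ⟨F, hF, ?_, ?_⟩
      · have := hFA ⟨s0, hs0⟩ ⟨t0, ht0⟩
        rw [eA] at this
        exact this
      · refine glue_step hd.met' hc0' hK1.le hF hAB hsA htA (hT hst) hnoT hs0 ht0 (hT hst0)
          EA' EB' ?_
        intro x hx z hz
        have e1 := hFAB ⟨x, hx⟩ ⟨z, hz⟩
        rw [← hFA, ← hFA, ← hFB, ← hFB, ← hFA] at e1
        exact e1
    · obtain ⟨FB, lB, eB, EB⟩ := ihB inferInstance _ _ pB ⟨s0, hs0⟩ ⟨t0, ht0⟩ hst0 D0 hD1 hD2
      have low := EB.low ⟨s, hsB⟩ trivial ⟨t, htB⟩ trivial (hT hst)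
      have up := EB.up ⟨s, hsB⟩ trivial ⟨t, htB⟩ trivial (hT hst)
      obtain ⟨FA, lA, eA, EA⟩ := ihA inferInstance _ _ pA ⟨s, hsA⟩ ⟨t, htA⟩ hst
        (FB ⟨s, hsB⟩ ⟨t, htB⟩) low up
      have hDpos : 0 < FB ⟨s, hsB⟩ ⟨t, htB⟩ :=
        (mul_pos hc0' (hd.met'.pos s t hst.ne)).trans_le low
      obtain ⟨F, hF, hFB, hFA, hFAB⟩ := glue B A s t hAB' hI' FB FA lB lA hsB htB hsA htA _ hDpos
        rfl eA
      have EA' := EmbOn.transfer (G := tight G E d d' M) (d := d') EA hFA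
      have EB' := EmbOn.transfer (G := tight G E d d' M) (d := d') EB hFB
      refine ⟨F, hF, ?_, ?_⟩
      · have := hFB ⟨s0, hs0⟩ ⟨t0, ht0⟩
        rw [eB] at this
        exact this
      · refine glue_step hd.met' hc0' hK1.le hF hAB' hsB htB (hT hst) hnoT' hs0 ht0 (hT hst0)
          EB' EA' ?_
        intro x hx z hz
        have e1 := hFAB ⟨x, hx⟩ ⟨z, hz⟩
        rw [← hFA, ← hFA, ← hFB, ← hFB, ← hFB] at e1
        exact e1

/-- **[A]** the induction -/
theorem ind : IndStmt := by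
  intro P c M hc hc1 _ hP V _ G E hE d d' hd s t hst
  have hle : c / 120 * d' s t ≤ d' s t := by
    have h0 := hd.met'.nonneg s t
    have : c / 120 ≤ 1 := by linarith only [hc1]
    calc c / 120 * d' s t ≤ 1 * d' s t := mul_le_mul_of_nonneg_right this h0
      _ = _ := one_mul _
  obtain ⟨F, hF, hFst, hEmb⟩ := main_ind hc hc1 rfl rfl hP hE inferInstance d d' hd s t hst
    (d' s t) hle le_rfl
  refine ⟨F, hF, hFst.trans (hd.eq s t hst), ?_,
    hF.le_of_gen hd.gen' fun u v huv => hEmb.up u trivial v trivial huv⟩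
  intro x y
  have h1 := hEmb.sp' x trivial y trivial
  have h2 : 5 * (5 * (4 / (c / 120))) * F x y = (12000 / c) * F x y := by field_simp; ring
  rw [h2] at h1
  have h3 : c / 12000 * d' x y ≤ c / 12000 * ((12000 / c) * F x y) :=
    mul_le_mul_of_nonneg_left h1 (by positivity)
  have h4 : c / 12000 * ((12000 / c) * F x y) = F x y := by field_simp
  rw [h4] at h3
  exact h3

/-- the graph on `V` made of a graph on `A` and a graph on `B` -/
def join {V : Type} {A B : Set V} (GA : SimpleGraph A) (GB : SimpleGraph B) : SimpleGraph V where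
  Adj u v := (∃ (hu : u ∈ A) (hv : v ∈ A), GA.Adj ⟨u, hu⟩ ⟨v, hv⟩) ∨
    ∃ (hu : u ∈ B) (hv : v ∈ B), GB.Adj ⟨u, hu⟩ ⟨v, hv⟩
  symm := ⟨fun _ _ h => h.imp (fun ⟨hu, hv, h⟩ => ⟨hv, hu, h.symm⟩)
    fun ⟨hu, hv, h⟩ => ⟨hv, hu, h.symm⟩⟩
  loopless := ⟨fun _ h => h.elim (fun ⟨_, _, h⟩ => GA.loopless.irrefl _ h)
    fun ⟨_, _, h⟩ => GB.loopless.irrefl _ h⟩

theorem join_induce_left {V : Type} {A B : Set V} {s t : V} (hI : A ∩ B = {s, t})
    (GA : SimpleGraph A) (GB : SimpleGraph B) (hsA : s ∈ A) (htA : t ∈ A)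
    (h : GA.Adj ⟨s, hsA⟩ ⟨t, htA⟩) : (join GA GB).induce A = GA := by
  ext ⟨u, hu⟩ ⟨v, hv⟩
  constructor
  · rintro (⟨_, _, h1⟩ | ⟨hu', hv', h1⟩)
    · exact h1
    · have e1 : u ∈ A ∩ B := ⟨hu, hu'⟩
      have e2 : v ∈ A ∩ B := ⟨hv, hv'⟩
      have hne : u ≠ v := fun e => h1.ne (Subtype.ext e)
      rw [hI] at e1 e2
      rcases e1 with e1 | e1 <;> rcases e2 with e2 | e2
      · exact absurd (e1.trans e2.symm) hne
      · subst e1; subst e2; exact h
      · subst e1; subst e2; exact h.symm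
      · exact absurd (e1.trans e2.symm) hne
  · intro h1
    exact Or.inl ⟨hu, hv, h1⟩

theorem join_induce_right {V : Type} {A B : Set V} {s t : V} (hI : A ∩ B = {s, t})
    (GA : SimpleGraph A) (GB : SimpleGraph B) (hsB : s ∈ B) (htB : t ∈ B)
    (h : GB.Adj ⟨s, hsB⟩ ⟨t, htB⟩) : (join GA GB).induce B = GB := by
  ext ⟨u, hu⟩ ⟨v, hv⟩
  constructor
  · rintro (⟨hu', hv', h1⟩ | ⟨_, _, h1⟩)
    · have e1 : u ∈ A ∩ B := ⟨hu', hu⟩
      have e2 : v ∈ A ∩ B := ⟨hv', hv⟩
      have hne : u ≠ v := fun e => h1.ne (Subtype.ext e)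
      rw [hI] at e1 e2
      rcases e1 with e1 | e1 <;> rcases e2 with e2 | e2
      · exact absurd (e1.trans e2.symm) hne
      · subst e1; subst e2; exact h
      · subst e1; subst e2; exact h.symm
      · exact absurd (e1.trans e2.symm) hne
    · exact h1
  · intro h1
    exact Or.inr ⟨hu, hv, h1⟩

/-- deletions can be done at the end -/
theorem super : SuperStmt := by
  intro P V G' E' h
  induction h with
  | @base V G E hle hp => exact ⟨G, E, le_rfl, le_rfl, MSum0.base hle hp⟩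
  | @del V G G' E E' _ h1 h2 _ ih =>
    obtain ⟨G1, E1, e1, e2, e3⟩ := ih
    exact ⟨G1, E1, h1.trans e1, h2.trans e2, e3⟩
  | @glue V G E A B s t hle hst hAB hI hno _ _ ihA ihB =>
    obtain ⟨GA, EA, a1, a2, a3⟩ := ihA
    obtain ⟨GB, EB, b1, b2, b3⟩ := ihB
    have hsAB : s ∈ A ∩ B := by rw [hI]; exact Or.inl rfl
    have htAB : t ∈ A ∩ B := by rw [hI]; exact Or.inr rfl
    have hmem : ∀ u, u ∈ A ∨ u ∈ B := by
      intro u
      have : u ∈ A ∪ B := by rw [hAB]; trivial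
      exact this
    have hedge : ∀ u v, G.Adj u v → (u ∈ A ∧ v ∈ A) ∨ (u ∈ B ∧ v ∈ B) := by
      intro u v huv
      by_cases hu : u ∈ A
      · by_cases hv : v ∈ A
        · exact Or.inl ⟨hu, hv⟩
        · have hvB := (hmem v).resolve_left hv
          by_cases huB : u ∈ B
          · exact Or.inr ⟨huB, hvB⟩
          · exact absurd huv (hno u v huB hv)
      · have huB := (hmem u).resolve_left hu
        by_cases hvB : v ∈ B
        · exact Or.inr ⟨huB, hvB⟩
        · exact absurd huv.symm (hno v u hvB hu)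
    have eA : EA.Adj ⟨s, hsAB.1⟩ ⟨t, htAB.1⟩ := a2 hst
    have eB : EB.Adj ⟨s, hsAB.2⟩ ⟨t, htAB.2⟩ := b2 hst
    have gA : GA.Adj ⟨s, hsAB.1⟩ ⟨t, htAB.1⟩ := (msum0_le a3) eA
    have gB : GB.Adj ⟨s, hsAB.2⟩ ⟨t, htAB.2⟩ := (msum0_le b3) eB
    refine ⟨join GA GB, join EA EB, ?_, ?_, ?_⟩
    · intro u v huv
      rcases hedge u v huv with ⟨hu, hv⟩ | ⟨hu, hv⟩
      · exact Or.inl ⟨hu, hv, a1 huv⟩
      · exact Or.inr ⟨hu, hv, b1 huv⟩
    · intro u v huv
      rcases hedge u v (hle huv) with ⟨hu, hv⟩ | ⟨hu, hv⟩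
      · exact Or.inl ⟨hu, hv, a2 huv⟩
      · exact Or.inr ⟨hu, hv, b2 huv⟩
    · refine MSum0.glue (A := A) (B := B) (s := s) (t := t) ?_ ?_ hAB hI ?_ ?_ ?_
      · rintro u v (⟨hu, hv, h⟩ | ⟨hu, hv, h⟩)
        · exact Or.inl ⟨hu, hv, (msum0_le a3) h⟩
        · exact Or.inr ⟨hu, hv, (msum0_le b3) h⟩
      · exact Or.inl ⟨hsAB.1, htAB.1, eA⟩
      · rintro a b ha hb (⟨hu, hv, -⟩ | ⟨hu, hv, -⟩)
        · exact hb hv
        · exact ha hu
      · rw [join_induce_left hI GA GB hsAB.1 htAB.1 gA, join_induce_left hI EA EB hsAB.1 htAB.1 eA]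
        exact a3
      · rw [join_induce_right hI GA GB hsAB.2 htAB.2 gB,
          join_induce_right hI EA EB hsAB.2 htAB.2 eB]
        exact b3

end Vale.Agent.P235.H142.Star
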